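import Mathlib

/-!
# P038 (H542): the min-cut comparison and the set form of Seymour's second neighbourhood conjecture
-/

namespace Vale.Agent.P038.H542

open Finset

universe u

variable {V : Type u} [Fintype V] [DecidableEq V]

/-- Weight of a set. -/
noncomputable def wt (w : V → ℝ) (S : Finset V) : ℝ := ∑ x ∈ S, w x

/-- Closed out-neighbourhood of a set. -/
def cl (N : V → Finset V) (S : Finset V) : Finset V := S.biUnion N

/-- Boundary weight `w(N[S]) - w(S)`. -/
noncomputable def cc (N : V → Finset V) (w : V → ℝ) (S : Finset V) : ℝ := wt w (cl N S) - wt w S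

/-- Total boundary weight of two families. -/
noncomputable def FF (N : V → Finset V) (p w : V → ℝ) (B C : V → Finset V) : ℝ :=
  ∑ s, p s * cc N w (B s) + ∑ x, w x * cc N p (C x)

/-- Left interior. -/
def LI (N : V → Finset V) (B : V → Finset V) (a : V) : Finset V :=
  univ.filter (fun x => ∀ s, a ∈ N s → x ∈ B s)

/-- Compatible pairs of families. -/
structure Pair (N : V → Finset V) (B C : V → Finset V) : Prop where
  hB : ∀ a, N a ⊆ B a
  hC : ∀ a, N a ⊆ C a
  hO : ∀ a b, b ∈ B a → a ∈ C b → a = b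

/-- Rows of the gap. -/
def Gr (B C : V → Finset V) (s : V) : Finset V := univ.filter (fun x => x ∉ B s ∧ s ∉ C x)

/-- Hall condition in the rows. -/
def H1 (N : V → Finset V) (w : V → ℝ) (B C : V → Finset V) : Prop :=
  ∀ s, ∀ X ⊆ Gr B C s, wt w X ≤ wt w (cl N X \ cl N (B s))

theorem wt_mono {w : V → ℝ} (hw : ∀ v, 0 ≤ w v) {S T : Finset V} (h : S ⊆ T) :
    wt w S ≤ wt w T :=
  Finset.sum_le_sum_of_subset_of_nonneg h (fun i _ _ => hw i)

theorem wt_union {w : V → ℝ} {S T : Finset V} (h : Disjoint S T) :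
    wt w (S ∪ T) = wt w S + wt w T := Finset.sum_union h

theorem wt_union_inter (w : V → ℝ) (S T : Finset V) :
    wt w (S ∪ T) + wt w (S ∩ T) = wt w S + wt w T := Finset.sum_union_inter

theorem wt_sdiff {w : V → ℝ} {S T : Finset V} (h : S ⊆ T) :
    wt w (T \ S) = wt w T - wt w S := by
  have := Finset.sum_sdiff (f := w) h
  unfold wt
  linarith

theorem wt_lin (w u : V → ℝ) (t : ℝ) (S : Finset V) :
    wt (fun x => w x + t * u x) S = wt w S + t * wt u S := by
  unfold wt
  rw [Finset.sum_add_distrib, Finset.mul_sum]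

theorem mem_cl {N : V → Finset V} {S : Finset V} {x : V} : x ∈ cl N S ↔ ∃ s ∈ S, x ∈ N s := by
  unfold cl
  rw [Finset.mem_biUnion]

theorem cl_mono {N : V → Finset V} {S T : Finset V} (h : S ⊆ T) : cl N S ⊆ cl N T := by
  intro x hx
  rw [mem_cl] at hx ⊢
  obtain ⟨s, hs, hx⟩ := hx
  exact ⟨s, h hs, hx⟩

theorem sub_cl {N : V → Finset V} (hN : ∀ a, a ∈ N a) (S : Finset V) : S ⊆ cl N S :=
  fun x hx => mem_cl.2 ⟨x, hx, hN x⟩

theorem cl_union (N : V → Finset V) (S T : Finset V) : cl N (S ∪ T) = cl N S ∪ cl N T := by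
  ext x
  simp only [mem_cl, Finset.mem_union]
  constructor
  · rintro ⟨s, hs | hs, hx⟩
    · exact Or.inl ⟨s, hs, hx⟩
    · exact Or.inr ⟨s, hs, hx⟩
  · rintro (⟨s, hs, hx⟩ | ⟨s, hs, hx⟩)
    · exact ⟨s, Or.inl hs, hx⟩
    · exact ⟨s, Or.inr hs, hx⟩

theorem wt_cl_union (N : V → Finset V) (w : V → ℝ) (S T : Finset V) :
    wt w (cl N (S ∪ T)) = wt w (cl N S) + wt w (cl N T \ cl N S) := by
  rw [cl_union, ← Finset.union_sdiff_self_eq_union, wt_union Finset.disjoint_sdiff]

theorem cc_union {N : V → Finset V} {w : V → ℝ} {S T : Finset V} (h : Disjoint S T) :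
    cc N w (S ∪ T) = cc N w S + (wt w (cl N T \ cl N S) - wt w T) := by
  unfold cc
  rw [wt_cl_union, wt_union h]
  ring

theorem cc_lin (N : V → Finset V) (w u : V → ℝ) (t : ℝ) (S : Finset V) :
    cc N (fun x => w x + t * u x) S = cc N w S + t * cc N u S := by
  unfold cc
  rw [wt_lin, wt_lin]
  ring

theorem FF_lin (N : V → Finset V) (p w u : V → ℝ) (t : ℝ) (B C : V → Finset V) :
    FF N p (fun x => w x + t * u x) B C = FF N p w B C + t * FF N p u B C := by
  unfold FF
  simp only [cc_lin]
  rw [mul_add, Finset.mul_sum, Finset.mul_sum]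
  have h1 : ∑ s, p s * (cc N w (B s) + t * cc N u (B s)) =
      ∑ s, p s * cc N w (B s) + ∑ s, t * (p s * cc N u (B s)) := by
    rw [← Finset.sum_add_distrib]
    exact Finset.sum_congr rfl (fun s _ => by ring)
  have h2 : ∑ x, (w x + t * u x) * cc N p (C x) =
      ∑ x, w x * cc N p (C x) + ∑ x, t * (u x * cc N p (C x)) := by
    rw [← Finset.sum_add_distrib]
    exact Finset.sum_congr rfl (fun s _ => by ring)
  rw [h1, h2]
  ring

theorem FF_swap (N : V → Finset V) (p w : V → ℝ) (B C : V → Finset V) :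
    FF N p w B C = FF N w p C B := by
  unfold FF
  ring

theorem mem_LI {N : V → Finset V} {B : V → Finset V} {a x : V} :
    x ∈ LI N B a ↔ ∀ s, a ∈ N s → x ∈ B s := by
  unfold LI
  simp

theorem mem_Gr {B C : V → Finset V} {s x : V} : x ∈ Gr B C s ↔ x ∉ B s ∧ s ∉ C x := by
  unfold Gr
  simp

theorem Pair.swap {N : V → Finset V} {B C : V → Finset V} (h : Pair N B C) : Pair N C B :=
  ⟨h.hC, h.hB, fun a b h1 h2 => (h.hO b a h2 h1).symm⟩

/-! ### The reduction to unit vectors -/

/-- Unit vector. -/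
noncomputable def ev (y : V) : V → ℝ := fun x => if x = y then 1 else 0

theorem cone_ind {ι : Type*} (I : Finset ι) (l : ι → (V → ℝ) → ℝ)
    (hl : ∀ i, ∀ w u : V → ℝ, ∀ t : ℝ, l i (fun x => w x + t * u x) = l i w + t * l i u)
    (Δ : (V → ℝ) → ℝ)
    (hΔ : ∀ w u : V → ℝ, ∀ t : ℝ, Δ (fun x => w x + t * u x) = Δ w + t * Δ u)
    (hT : ∀ w : V → ℝ, (∀ v, 0 ≤ w v) → (∀ i ∈ I, 0 ≤ l i w) → (∃ i ∈ I, l i w = 0) → 0 ≤ Δ w)
    (hE : ∀ y, (∀ i ∈ I, 0 ≤ l i (ev y)) → 0 ≤ Δ (ev y)) :
    ∀ n : ℕ, ∀ w : V → ℝ, (univ.filter (fun x => w x ≠ 0)).card = n → (∀ v, 0 ≤ w v) →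
      (∀ i ∈ I, 0 ≤ l i w) → 0 ≤ Δ w := by
  intro n
  induction n using Nat.strong_induction_on with
  | _ n ih =>
  intro w hn hw hI
  by_cases hy : ∃ y, w y ≠ 0
  swap
  · push Not at hy
    have hw0 : w = fun _ => 0 := funext hy
    have h1 := hΔ w w 1
    have h2 : (fun x => w x + 1 * w x) = w := by
      rw [hw0]
      funext x
      simp
    rw [h2] at h1
    linarith
  obtain ⟨y, hy⟩ := hy
  have hy0 : 0 < w y := lt_of_le_of_ne (hw y) (Ne.symm hy)
  -- going down
  obtain ⟨θ, hθ0, hθy, hθI, hθe⟩ : ∃ θ : ℝ, 0 ≤ θ ∧ θ ≤ w y ∧ (∀ i ∈ I, 0 ≤ l i w - θ * l i (ev y)) ∧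
      (θ = w y ∨ ∃ i ∈ I, l i w - θ * l i (ev y) = 0) := by
    by_cases hP : (I.filter (fun i => 0 < l i (ev y))).Nonempty
    · obtain ⟨i0, hi0, hmin⟩ := Finset.exists_min_image _ (fun i => l i w / l i (ev y)) hP
      rw [Finset.mem_filter] at hi0
      by_cases hle : l i0 w / l i0 (ev y) ≤ w y
      · refine ⟨l i0 w / l i0 (ev y), div_nonneg (hI i0 hi0.1) hi0.2.le, hle, ?_, Or.inr ⟨i0, hi0.1, ?_⟩⟩
        · intro i hi
          by_cases hpos : 0 < l i (ev y)
          · have h1 := hmin i (Finset.mem_filter.2 ⟨hi, hpos⟩)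
            have h2 := mul_le_mul_of_nonneg_right h1 hpos.le
            rw [div_mul_cancel₀ (l i w) hpos.ne'] at h2
            linarith
          · have h1 : l i0 w / l i0 (ev y) * l i (ev y) ≤ 0 :=
              mul_nonpos_of_nonneg_of_nonpos (div_nonneg (hI i0 hi0.1) hi0.2.le) (not_lt.1 hpos)
            have := hI i hi
            linarith
        · rw [div_mul_cancel₀ _ hi0.2.ne']
          ring
      · push Not at hle
        refine ⟨w y, hy0.le, le_refl _, ?_, Or.inl rfl⟩
        intro i hi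
        by_cases hpos : 0 < l i (ev y)
        · have h1 := hmin i (Finset.mem_filter.2 ⟨hi, hpos⟩)
          have h2 : w y * l i (ev y) ≤ l i w / l i (ev y) * l i (ev y) :=
            mul_le_mul_of_nonneg_right (hle.le.trans h1) hpos.le
          rw [div_mul_cancel₀ (l i w) hpos.ne'] at h2
          linarith
        · have h1 : w y * l i (ev y) ≤ 0 :=
            mul_nonpos_of_nonneg_of_nonpos hy0.le (not_lt.1 hpos)
          have := hI i hi
          linarith
    · refine ⟨w y, hy0.le, le_refl _, ?_, Or.inl rfl⟩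
      intro i hi
      have hpos : ¬ 0 < l i (ev y) := fun h => hP ⟨i, Finset.mem_filter.2 ⟨hi, h⟩⟩
      have h1 : w y * l i (ev y) ≤ 0 :=
        mul_nonpos_of_nonneg_of_nonpos hy0.le (not_lt.1 hpos)
      have := hI i hi
      linarith
  have hdown : 0 ≤ Δ (fun x => w x + (-θ) * ev y x) := by
    have hnn : ∀ v, 0 ≤ w v + (-θ) * ev y v := by
      intro v
      unfold ev
      by_cases hv : v = y
      · rw [if_pos hv, hv]
        linarith
      · rw [if_neg hv]
        have := hw v
        linarith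
    have hII : ∀ i ∈ I, 0 ≤ l i (fun x => w x + (-θ) * ev y x) := by
      intro i hi
      rw [hl]
      have := hθI i hi
      linarith
    rcases hθe with hθe | ⟨i, hi, hie⟩
    · refine ih _ ?_ _ rfl hnn hII
      rw [← hn]
      apply Finset.card_lt_card
      refine ⟨?_, ?_⟩
      · intro x hx
        rw [Finset.mem_filter] at hx ⊢
        refine ⟨Finset.mem_univ _, fun h0 => hx.2 ?_⟩
        unfold ev
        by_cases hxy : x = y
        · exact absurd (hxy ▸ h0) hy
        · rw [if_neg hxy, h0]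
          ring
      · intro hsub
        have h1 := hsub (Finset.mem_filter.2 ⟨Finset.mem_univ y, hy⟩)
        rw [Finset.mem_filter] at h1
        apply h1.2
        unfold ev
        rw [if_pos rfl, hθe]
        ring
    · refine hT _ hnn hII ⟨i, hi, ?_⟩
      rw [hl]
      linarith
  rw [hΔ] at hdown
  by_cases hEy : ∀ i ∈ I, 0 ≤ l i (ev y)
  · have h1 := hE y hEy
    have h2 := mul_nonneg hθ0 h1
    linarith
  push Not at hEy
  obtain ⟨j, hj, hjn⟩ := hEy
  by_cases hDe : 0 ≤ Δ (ev y)
  · have h2 := mul_nonneg hθ0 hDe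
    linarith
  push Not at hDe
  -- going up
  obtain ⟨i0, hi0, hmin⟩ := Finset.exists_min_image (I.filter (fun i => l i (ev y) < 0))
    (fun i => l i w / (-l i (ev y))) ⟨j, Finset.mem_filter.2 ⟨hj, hjn⟩⟩
  rw [Finset.mem_filter] at hi0
  set η := l i0 w / (-l i0 (ev y)) with hη
  have hneg0 : 0 < -l i0 (ev y) := by linarith [hi0.2]
  have hη0 : 0 ≤ η := div_nonneg (hI i0 hi0.1) hneg0.le
  have hup : 0 ≤ Δ (fun x => w x + η * ev y x) := by
    refine hT _ ?_ ?_ ⟨i0, hi0.1, ?_⟩
    · intro v
      have h1 : 0 ≤ ev y v := by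
        unfold ev
        split_ifs <;> norm_num
      have := mul_nonneg hη0 h1
      have := hw v
      linarith
    · intro i hi
      rw [hl]
      by_cases hneg : l i (ev y) < 0
      · have h1 := hmin i (Finset.mem_filter.2 ⟨hi, hneg⟩)
        have h3 : 0 < -l i (ev y) := by linarith
        have h2 := mul_le_mul_of_nonneg_right h1 h3.le
        rw [div_mul_cancel₀ (l i w) h3.ne'] at h2
        have h4 : η * (-l i (ev y)) ≤ l i w := h2
        linarith
      · have := mul_nonneg hη0 (not_lt.1 hneg)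
        have := hI i hi
        linarith
    · rw [hl]
      have h1 : η * (-l i0 (ev y)) = l i0 w := div_mul_cancel₀ _ hneg0.ne'
      linarith
  rw [hΔ] at hup
  have h5 : η * Δ (ev y) ≤ 0 := mul_nonpos_of_nonneg_of_nonpos hη0 hDe.le
  linarith

/-! ### The tight step -/

theorem pair_update {N : V → Finset V} {B C : V → Finset V} (h : Pair N B C) {s : V}
    {X : Finset V} (hX : X ⊆ Gr B C s) : Pair N (Function.update B s (B s ∪ X)) C := by
  refine ⟨?_, h.hC, ?_⟩
  · intro a
    by_cases ha : a = s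
    · subst ha
      rw [Function.update_self]
      exact (h.hB a).trans Finset.subset_union_left
    · rw [Function.update_of_ne ha]
      exact h.hB a
  · intro a b hb hab
    by_cases ha : a = s
    · subst ha
      rw [Function.update_self, Finset.mem_union] at hb
      rcases hb with hb | hb
      · exact h.hO a b hb hab
      · exact absurd hab (mem_Gr.1 (hX hb)).2
    · rw [Function.update_of_ne ha] at hb
      exact h.hO a b hb hab

theorem sub_update {B : V → Finset V} {s : V} {X : Finset V} (a : V) :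
    B a ⊆ Function.update B s (B s ∪ X) a := by
  by_cases ha : a = s
  · subst ha
    rw [Function.update_self]
    exact Finset.subset_union_left
  · rw [Function.update_of_ne ha]

theorem tight_step {N : V → Finset V} {p w : V → ℝ} (hp : ∀ v, 0 ≤ p v) (hw : ∀ v, 0 ≤ w v)
    {B C : V → Finset V} (hPair : Pair N B C) (h2 : H1 N p C B) (h1 : H1 N w B C)
    (ih : ∀ B' : V → Finset V, (∑ s, (Gr B' C s).card) < ∑ s, (Gr B C s).card → Pair N B' C →
      H1 N p C B' → H1 N w B' C → FF N p w (LI N B') (LI N C) ≤ FF N p w B' C)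
    {s : V} {X : Finset V} (hX : X ⊆ Gr B C s) (hXne : X.Nonempty)
    (ht : wt w (cl N X \ cl N (B s)) - wt w X = 0) :
    FF N p w (LI N B) (LI N C) ≤ FF N p w B C := by
  have hdis : Disjoint (B s) X := by
    rw [Finset.disjoint_left]
    intro x hx hx'
    exact (mem_Gr.1 (hX hx')).1 hx
  set B' := Function.update B s (B s ∪ X) with hB'
  have hB's : B' s = B s ∪ X := Function.update_self ..
  have hB'n : ∀ a, a ≠ s → B' a = B a := fun a ha => Function.update_of_ne ha ..
  have hsub : ∀ a, B a ⊆ B' a := fun a => sub_update a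
  have hGsub : ∀ a, Gr B' C a ⊆ Gr B C a := by
    intro a x hx
    rw [mem_Gr] at hx ⊢
    exact ⟨fun h => hx.1 (hsub a h), hx.2⟩
  have hcard : (∑ a, (Gr B' C a).card) < ∑ a, (Gr B C a).card := by
    apply Finset.sum_lt_sum
    · intro a _
      exact Finset.card_le_card (hGsub a)
    · refine ⟨s, Finset.mem_univ s, Finset.card_lt_card ⟨hGsub s, ?_⟩⟩
      intro hh
      obtain ⟨x, hx⟩ := hXne
      have h3 := mem_Gr.1 (hh (hX hx))
      apply h3.1
      rw [hB's]
      exact Finset.mem_union_right _ hx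
  have hP' : Pair N B' C := pair_update hPair hX
  have h2' : H1 N p C B' := by
    intro x Y hY
    apply h2 x Y
    intro a ha
    have h3 := mem_Gr.1 (hY ha)
    exact mem_Gr.2 ⟨h3.1, fun h => h3.2 (hsub a h)⟩
  have h1' : H1 N w B' C := by
    intro a Y hY
    by_cases ha : a = s
    · subst ha
      rw [hB's]
      have hYX : Disjoint X Y := by
        rw [Finset.disjoint_left]
        intro x hx hx'
        apply (mem_Gr.1 (hY hx')).1
        rw [hB's]
        exact Finset.mem_union_right _ hx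
      have h3 := h1 a (X ∪ Y) (Finset.union_subset hX (hY.trans (hGsub a)))
      rw [wt_union hYX] at h3
      have h4 : cl N (X ∪ Y) \ cl N (B a) =
          (cl N X \ cl N (B a)) ∪ (cl N Y \ cl N (B a ∪ X)) := by
        rw [cl_union, cl_union]
        ext x
        simp only [Finset.mem_sdiff, Finset.mem_union]
        tauto
      have h5 : Disjoint (cl N X \ cl N (B a)) (cl N Y \ cl N (B a ∪ X)) := by
        rw [Finset.disjoint_left]
        intro x hx hx'
        rw [Finset.mem_sdiff] at hx hx'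
        apply hx'.2
        rw [cl_union]
        exact Finset.mem_union_right _ hx.1
      rw [h4, wt_union h5] at h3
      linarith
    · rw [hB'n a ha]
      exact h1 a Y (hY.trans (hGsub a))
  have hFF : FF N p w B' C = FF N p w B C := by
    unfold FF
    congr 1
    apply Finset.sum_congr rfl
    intro a _
    by_cases ha : a = s
    · subst ha
      rw [hB's, cc_union hdis, ht, add_zero]
    · rw [hB'n a ha]
  have hIH := ih B' hcard hP' h2' h1'
  have hLI : FF N p w (LI N B) (LI N C) ≤ FF N p w (LI N B') (LI N C) := by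
    unfold FF
    apply add_le_add_left
    apply Finset.sum_le_sum
    intro a _
    apply mul_le_mul_of_nonneg_left _ (hp a)
    have hsubLI : LI N B a ⊆ LI N B' a := by
      intro x hx
      rw [mem_LI] at hx ⊢
      intro s' hs'
      exact hsub s' (hx s' hs')
    by_cases ha : a ∈ N s
    · have hD : LI N B' a \ LI N B a ⊆ X := by
        intro x hx
        rw [Finset.mem_sdiff, mem_LI, mem_LI] at hx
        obtain ⟨hx1, hx2⟩ := hx
        push Not at hx2
        obtain ⟨s', hs', hx2⟩ := hx2
        have hx3 := hx1 s' hs'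
        by_cases hss : s' = s
        · subst hss
          rw [hB's, Finset.mem_union] at hx3
          exact hx3.resolve_left hx2
        · rw [hB'n s' hss] at hx3
          exact absurd hx3 hx2
      have h3 := h1 s _ (hD.trans hX)
      have h4 : LI N B' a = LI N B a ∪ (LI N B' a \ LI N B a) :=
        (Finset.union_sdiff_of_subset hsubLI).symm
      have h5 : cc N w (LI N B' a) = cc N w (LI N B a) +
          (wt w (cl N (LI N B' a \ LI N B a) \ cl N (LI N B a)) - wt w (LI N B' a \ LI N B a)) := by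
        conv_lhs => rw [h4]
        exact cc_union Finset.disjoint_sdiff
      have h6 : wt w (cl N (LI N B' a \ LI N B a) \ cl N (B s)) ≤
          wt w (cl N (LI N B' a \ LI N B a) \ cl N (LI N B a)) := by
        apply wt_mono hw
        apply Finset.sdiff_subset_sdiff (Finset.Subset.refl _)
        apply cl_mono
        intro x hx
        exact mem_LI.1 hx s ha
      rw [h5]
      linarith
    · have h3 : LI N B' a = LI N B a := by
        ext x
        rw [mem_LI, mem_LI]
        constructor
        · intro h s' hs'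
          have hss : s' ≠ s := fun h' => ha (h' ▸ hs')
          have := h s' hs'
          rwa [hB'n s' hss] at this
        · intro h s' hs'
          exact hsub s' (h s' hs')
      rw [h3]
  rw [← hFF]
  exact hLI.trans hIH

/-! ### The unit case -/

theorem wt_ev (y : V) (S : Finset V) : wt (ev y) S = if y ∈ S then 1 else 0 := by
  unfold wt ev
  rw [Finset.sum_ite_eq']

theorem sum_ite_wt (p : V → ℝ) (P : V → Prop) [DecidablePred P] :
    ∑ s, p s * (if P s then (1 : ℝ) else 0) = wt p (univ.filter P) := by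
  unfold wt
  rw [Finset.sum_filter]
  apply Finset.sum_congr rfl
  intro s _
  split_ifs <;> ring

theorem FF_ev (N : V → Finset V) (p : V → ℝ) (y : V) (B C : V → Finset V) :
    FF N p (ev y) B C = wt p (univ.filter fun s => y ∈ cl N (B s)) -
      wt p (univ.filter fun s => y ∈ B s) + (wt p (cl N (C y)) - wt p (C y)) := by
  unfold FF
  have h1 : ∑ s, p s * cc N (ev y) (B s) = wt p (univ.filter fun s => y ∈ cl N (B s)) -
      wt p (univ.filter fun s => y ∈ B s) := by
    rw [← sum_ite_wt, ← sum_ite_wt, ← Finset.sum_sub_distrib]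
    apply Finset.sum_congr rfl
    intro s _
    unfold cc
    rw [wt_ev, wt_ev]
    ring
  have h2 : ∑ x, ev y x * cc N p (C x) = cc N p (C y) := by
    unfold ev
    rw [Finset.sum_eq_single y]
    · rw [if_pos rfl, one_mul]
    · intro b _ hb
      rw [if_neg hb, zero_mul]
    · intro h
      exact absurd (Finset.mem_univ y) h
  rw [h1, h2]
  rfl

theorem wt_compl_add (p : V → ℝ) (S T : Finset V) :
    wt p S + wt p T = wt p univ - wt p (S ∪ T)ᶜ + wt p (S ∩ T) := by
  have h1 := wt_union_inter p S T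
  have h2 : wt p (S ∪ T) + wt p (S ∪ T)ᶜ = wt p univ := Finset.sum_add_sum_compl (S ∪ T) p
  linarith

theorem unit_ind {N : V → Finset V} {p : V → ℝ} (hp : ∀ v, 0 ≤ p v)
    {B C : V → Finset V} (h2 : H1 N p C B) (y : V) (K : Finset V) :
    (∀ x ∈ K, y ∈ N x) →
    wt p (univ.filter fun s => y ∉ cl N (B s) ∧ ∃ x ∈ K, s ∉ C x) ≤
      wt p (univ.filter fun a => (∃ x ∈ K, a ∉ cl N (C x)) ∧ ∃ s, a ∈ N s ∧ y ∉ cl N (B s)) := by
  classical
  induction K using Finset.induction_on with
  | empty =>
    intro _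
    apply le_of_eq
    congr 1
    ext s
    simp
  | insert x K hx ih =>
    intro hK
    have ihK := ih (fun x' hx' => hK x' (Finset.mem_insert_of_mem hx'))
    have hyx : y ∈ N x := hK x (Finset.mem_insert_self x K)
    set UK := univ.filter (fun s => y ∉ cl N (B s) ∧ ∃ x ∈ K, s ∉ C x) with hUK
    set UI := univ.filter (fun s => y ∉ cl N (B s) ∧ ∃ x' ∈ insert x K, s ∉ C x') with hUI
    set WK := univ.filter (fun a => (∃ x ∈ K, a ∉ cl N (C x)) ∧ ∃ s, a ∈ N s ∧ y ∉ cl N (B s))
      with hWK
    set WI := univ.filter (fun a => (∃ x' ∈ insert x K, a ∉ cl N (C x')) ∧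
      ∃ s, a ∈ N s ∧ y ∉ cl N (B s)) with hWI
    have hUsub : UK ⊆ UI := by
      intro s hs
      rw [hUK, Finset.mem_filter] at hs
      rw [hUI, Finset.mem_filter]
      obtain ⟨_, h3, x', hx', h4⟩ := hs
      exact ⟨Finset.mem_univ _, h3, x', Finset.mem_insert_of_mem hx', h4⟩
    have hWsub : WK ⊆ WI := by
      intro s hs
      rw [hWK, Finset.mem_filter] at hs
      rw [hWI, Finset.mem_filter]
      obtain ⟨_, ⟨x', hx', h4⟩, h3⟩ := hs
      exact ⟨Finset.mem_univ _, ⟨x', Finset.mem_insert_of_mem hx', h4⟩, h3⟩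
    have hDm : ∀ s ∈ UI \ UK, y ∉ cl N (B s) ∧ s ∉ C x ∧ ∀ x' ∈ K, s ∈ C x' := by
      intro s hs
      rw [Finset.mem_sdiff, hUI, hUK, Finset.mem_filter, Finset.mem_filter] at hs
      obtain ⟨⟨_, h3, x', hx', h4⟩, h5⟩ := hs
      have h6 : ∀ x' ∈ K, s ∈ C x' := by
        intro x'' hx''
        by_contra h7
        exact h5 ⟨Finset.mem_univ _, h3, x'', hx'', h7⟩
      refine ⟨h3, ?_, h6⟩
      rcases Finset.mem_insert.1 hx' with h7 | h7
      · rw [← h7]
        exact h4
      · exact absurd (h6 x' h7) h4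
    have hDG : UI \ UK ⊆ Gr C B x := by
      intro s hs
      obtain ⟨h3, h4, _⟩ := hDm s hs
      rw [mem_Gr]
      refine ⟨h4, fun h5 => h3 ?_⟩
      exact mem_cl.2 ⟨x, h5, hyx⟩
    have hH := h2 x _ hDG
    have hEsub : cl N (UI \ UK) \ cl N (C x) ⊆ WI := by
      intro a ha
      rw [Finset.mem_sdiff, mem_cl] at ha
      obtain ⟨⟨s, hs, has⟩, ha2⟩ := ha
      rw [hWI, Finset.mem_filter]
      exact ⟨Finset.mem_univ _, ⟨x, Finset.mem_insert_self x K, ha2⟩, s, has, (hDm s hs).1⟩
    have hEdis : Disjoint WK (cl N (UI \ UK) \ cl N (C x)) := by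
      rw [Finset.disjoint_left]
      intro a ha hb
      rw [hWK, Finset.mem_filter] at ha
      obtain ⟨_, ⟨x', hx', h4⟩, _⟩ := ha
      rw [Finset.mem_sdiff, mem_cl] at hb
      obtain ⟨⟨s, hs, has⟩, _⟩ := hb
      exact h4 (mem_cl.2 ⟨s, (hDm s hs).2.2 x' hx', has⟩)
    have h7 : wt p WK + wt p (cl N (UI \ UK) \ cl N (C x)) ≤ wt p WI := by
      rw [← wt_union hEdis]
      exact wt_mono hp (Finset.union_subset hWsub hEsub)
    have h8 := wt_sdiff (w := p) hUsub
    linarith

theorem unit_case {N : V → Finset V} (hN : ∀ a, a ∈ N a) {p : V → ℝ} (hp : ∀ v, 0 ≤ p v)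
    {B C : V → Finset V} (hPair : Pair N B C) (h2 : H1 N p C B) (y : V)
    (hG : ∀ s, y ∈ B s ∨ s ∈ C y) :
    FF N p (ev y) (LI N B) (LI N C) ≤ FF N p (ev y) B C := by
  rw [FF_ev, FF_ev]
  have hwt1 : wt p {y} = p y := Finset.sum_singleton ..
  -- (i1)
  have i1 : wt p (C y) + wt p (univ.filter fun s => y ∈ B s) = wt p univ + p y := by
    rw [← wt_union_inter]
    have h3 : C y ∪ (univ.filter fun s => y ∈ B s) = univ := by
      ext s
      simp only [Finset.mem_union, Finset.mem_filter, Finset.mem_univ, true_and, iff_true]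
      exact (hG s).symm
    have h4 : C y ∩ (univ.filter fun s => y ∈ B s) = {y} := by
      ext s
      simp only [Finset.mem_inter, Finset.mem_filter, Finset.mem_univ, true_and,
        Finset.mem_singleton]
      constructor
      · rintro ⟨h5, h6⟩
        exact hPair.hO s y h6 h5
      · rintro rfl
        exact ⟨hPair.hC s (hN s), hPair.hB s (hN s)⟩
    rw [h3, h4, hwt1]
  -- (i2)
  have i2 : wt p (cl N (C y)) + wt p (univ.filter fun a => y ∈ LI N B a) = wt p univ + p y := by
    rw [← wt_union_inter]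
    have h3 : cl N (C y) ∪ (univ.filter fun a => y ∈ LI N B a) = univ := by
      ext a
      simp only [Finset.mem_union, Finset.mem_filter, Finset.mem_univ, true_and, iff_true]
      by_cases ha : a ∈ cl N (C y)
      · exact Or.inl ha
      · right
        rw [mem_LI]
        intro s hs
        rcases hG s with h5 | h5
        · exact h5
        · exact absurd (mem_cl.2 ⟨s, h5, hs⟩) ha
    have h4 : cl N (C y) ∩ (univ.filter fun a => y ∈ LI N B a) = {y} := by
      ext a
      simp only [Finset.mem_inter, Finset.mem_filter, Finset.mem_univ, true_and,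
        Finset.mem_singleton]
      constructor
      · rintro ⟨h5, h6⟩
        rw [mem_cl] at h5
        rw [mem_LI] at h6
        obtain ⟨s, hs, has⟩ := h5
        have h7 : s = y := hPair.hO s y (h6 s has) hs
        subst h7
        exact hPair.hO a s (h6 a (hN a)) (hPair.hC s has)
      · rintro rfl
        refine ⟨mem_cl.2 ⟨a, hPair.hC a (hN a), hN a⟩, mem_LI.2 ?_⟩
        intro s hs
        exact hPair.hB s hs
    rw [h3, h4, hwt1]
  -- (★)
  have star : wt p (univ.filter fun a => y ∈ cl N (LI N B a)) + wt p (cl N (LI N C y)) ≤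
      wt p (univ.filter fun s => y ∈ cl N (B s)) + wt p (LI N C y) := by
    rw [wt_compl_add, wt_compl_add p (univ.filter fun s => y ∈ cl N (B s))]
    have h3 : wt p ((univ.filter fun a => y ∈ cl N (LI N B a)) ∩ cl N (LI N C y)) ≤ p y := by
      rw [← hwt1]
      apply wt_mono hp
      intro a ha
      simp only [Finset.mem_inter, Finset.mem_filter, Finset.mem_univ, true_and] at ha
      obtain ⟨h5, h6⟩ := ha
      rw [mem_cl] at h5 h6
      obtain ⟨u, hu, hyu⟩ := h5
      obtain ⟨v, hv, hav⟩ := h6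
      rw [mem_LI] at hu hv
      have h7 : v = u := hPair.hO v u (hu v hav) (hv u hyu)
      subst h7
      have h8 : a = v := hPair.hO a v (hu a (hN a)) (hPair.hC v hav)
      subst h8
      rw [Finset.mem_singleton]
      exact hPair.hO a y (hPair.hB a hyu) (hv y (hN y))
    have h4 : p y ≤ wt p ((univ.filter fun s => y ∈ cl N (B s)) ∩ LI N C y) := by
      rw [← hwt1]
      apply wt_mono hp
      intro a ha
      rw [Finset.mem_singleton] at ha
      subst ha
      simp only [Finset.mem_inter, Finset.mem_filter, Finset.mem_univ, true_and]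
      refine ⟨mem_cl.2 ⟨a, hPair.hB a (hN a), hN a⟩, mem_LI.2 ?_⟩
      intro s hs
      exact hPair.hC s hs
    have h5 : wt p ((univ.filter fun s => y ∈ cl N (B s)) ∪ LI N C y)ᶜ ≤
        wt p ((univ.filter fun a => y ∈ cl N (LI N B a)) ∪ cl N (LI N C y))ᶜ := by
      have h6 := unit_ind hp h2 y (univ.filter fun x => y ∈ N x)
        (fun x hx => (Finset.mem_filter.1 hx).2)
      refine le_trans (wt_mono hp ?_) (h6.trans (wt_mono hp ?_))
      · intro s hs
        simp only [Finset.mem_compl, Finset.mem_union, Finset.mem_filter, Finset.mem_univ,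
          true_and, mem_LI, not_or, not_forall] at hs ⊢
        obtain ⟨h7, x, hx, h8⟩ := hs
        exact ⟨h7, x, hx, h8⟩
      · intro a ha
        simp only [Finset.mem_compl, Finset.mem_union, Finset.mem_filter, Finset.mem_univ,
          true_and, not_or] at ha ⊢
        obtain ⟨⟨x, hx, h7⟩, s, has, h8⟩ := ha
        constructor
        · intro h9
          apply h8
          rw [mem_cl] at h9 ⊢
          obtain ⟨u, hu, hyu⟩ := h9
          exact ⟨u, mem_LI.1 hu s has, hyu⟩
        · intro h9
          apply h7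
          rw [mem_cl] at h9 ⊢
          obtain ⟨v, hv, hav⟩ := h9
          exact ⟨v, mem_LI.1 hv x hx, hav⟩
    linarith
  linarith

/-! ### The comparison theorem -/

theorem LK {N : V → Finset V} (hN : ∀ a, a ∈ N a) {p : V → ℝ} (hp : ∀ v, 0 ≤ p v) :
    ∀ n : ℕ, ∀ B C : V → Finset V, (∑ s, (Gr B C s).card) = n → Pair N B C → H1 N p C B →
      ∀ w : V → ℝ, (∀ v, 0 ≤ w v) → H1 N w B C →
        FF N p w (LI N B) (LI N C) ≤ FF N p w B C := by
  classical
  intro n
  induction n using Nat.strong_induction_on with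
  | _ n ih =>
  intro B C hn hPair h2 w hw h1
  set I : Finset (V × Finset V) := univ.filter (fun i => i.2 ⊆ Gr B C i.1 ∧ i.2.Nonempty) with hI
  set l : V × Finset V → (V → ℝ) → ℝ :=
    fun i w => wt w (cl N i.2 \ cl N (B i.1)) - wt w i.2 with hl
  have hH1 : ∀ w : V → ℝ, (∀ i ∈ I, 0 ≤ l i w) → H1 N w B C := by
    intro w hIw s X hX
    by_cases hXne : X.Nonempty
    · have h3 := hIw (s, X) (Finset.mem_filter.2 ⟨Finset.mem_univ _, hX, hXne⟩)
      simp only [hl] at h3
      linarith
    · rw [Finset.not_nonempty_iff_eq_empty] at hXne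
      subst hXne
      have h3 : cl N (∅ : Finset V) = ∅ := by
        unfold cl
        simp
      rw [h3, Finset.empty_sdiff]
  have hT : ∀ w : V → ℝ, (∀ v, 0 ≤ w v) → (∀ i ∈ I, 0 ≤ l i w) → (∃ i ∈ I, l i w = 0) →
      0 ≤ FF N p w B C - FF N p w (LI N B) (LI N C) := by
    intro w hw hIw hex
    obtain ⟨⟨s, X⟩, hi, hi0⟩ := hex
    obtain ⟨_, hX, hXne⟩ := Finset.mem_filter.1 hi
    have h3 := tight_step hp hw hPair h2 (hH1 w hIw)
      (fun B' hc hP' h2' h1' => ih _ (hn ▸ hc) B' C rfl hP' h2' w hw h1') hX hXne hi0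
    linarith
  have key := cone_ind I l
    (fun i w u t => by
      simp only [hl]
      rw [wt_lin, wt_lin]
      ring)
    (fun w => FF N p w B C - FF N p w (LI N B) (LI N C))
    (fun w u t => by
      rw [FF_lin, FF_lin]
      ring)
    hT
    (fun y hIy => by
      have hev : ∀ v, 0 ≤ ev y v := by
        intro v
        unfold ev
        split_ifs <;> norm_num
      by_cases hG : ∀ s, y ∈ B s ∨ s ∈ C y
      · have h3 := unit_case hN hp hPair h2 y hG
        linarith
      · push Not at hG
        obtain ⟨s, hs1, hs2⟩ := hG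
        have hmem : ((s, {y}) : V × Finset V) ∈ I := by
          refine Finset.mem_filter.2 ⟨Finset.mem_univ _, ?_, Finset.singleton_nonempty y⟩
          intro x hx
          rw [Finset.mem_singleton] at hx
          subst hx
          exact mem_Gr.2 ⟨hs1, hs2⟩
        refine hT (ev y) hev hIy ⟨(s, {y}), hmem, ?_⟩
        have h3 := hIy _ hmem
        simp only [hl] at h3 ⊢
        rw [wt_ev, wt_ev, if_pos (Finset.mem_singleton_self y)] at h3 ⊢
        split_ifs at h3 ⊢ <;> linarith)
    _ w rfl hw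
    (fun i hi => by
      obtain ⟨_, hX, _⟩ := Finset.mem_filter.1 hi
      have h3 := h1 i.1 i.2 hX
      simp only [hl]
      linarith)
  linarith

/-! ### Minimisers satisfy the Hall conditions -/

theorem min_H1 {N : V → Finset V} {p w : V → ℝ} (hp : ∀ v, 0 < p v) {B C : V → Finset V}
    (hPair : Pair N B C)
    (hmin : ∀ B' C' : V → Finset V, Pair N B' C' → FF N p w B C ≤ FF N p w B' C') :
    H1 N w B C := by
  intro s X hX
  have hdis : Disjoint (B s) X := by
    rw [Finset.disjoint_left]
    intro x hx hx'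
    exact (mem_Gr.1 (hX hx')).1 hx
  have h3 := hmin _ _ (pair_update hPair hX)
  have h4 : FF N p w (Function.update B s (B s ∪ X)) C =
      FF N p w B C + p s * (wt w (cl N X \ cl N (B s)) - wt w X) := by
    unfold FF
    rw [← Finset.add_sum_erase _ _ (Finset.mem_univ s),
      ← Finset.add_sum_erase univ (fun s => p s * cc N w (B s)) (Finset.mem_univ s)]
    rw [Function.update_self, cc_union hdis]
    have h5 : ∑ x ∈ univ.erase s, p x * cc N w (Function.update B s (B s ∪ X) x) =
        ∑ x ∈ univ.erase s, p x * cc N w (B x) := by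
      apply Finset.sum_congr rfl
      intro x hx
      rw [Function.update_of_ne (Finset.ne_of_mem_erase hx)]
    rw [h5]
    ring
  rw [h4] at h3
  have h6 : 0 ≤ p s * (wt w (cl N X \ cl N (B s)) - wt w X) := by linarith
  have h7 := nonneg_of_mul_nonneg_right h6 (hp s)
  linarith

/-! ### The set form of Seymour's second neighbourhood conjecture -/

theorem setSNC [Nonempty V] (N : V → Finset V) (hN : ∀ a, a ∈ N a)
    (hor : ∀ a b, b ∈ N a → a ∈ N b → a = b) (hsink : ∀ a, ∃ b ∈ N a, b ≠ a)
    (w : V → ℝ) (hw : ∀ v, 0 < w v)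
    (hG : ∀ X, cl N X ≠ X → wt w (cl N (cl N X) \ cl N X) < wt w (cl N X \ X)) : False := by
  classical
  have hw0 : ∀ v, 0 ≤ w v := fun v => (hw v).le
  -- the minimiser
  obtain ⟨⟨B, C⟩, hBC, hmin⟩ := Finset.exists_min_image
    (univ.filter (fun q : (V → Finset V) × (V → Finset V) => Pair N q.1 q.2))
    (fun q => FF N w w q.1 q.2)
    ⟨(N, N), Finset.mem_filter.2 ⟨Finset.mem_univ _, fun a => Finset.Subset.refl _,
      fun a => Finset.Subset.refl _, hor⟩⟩
  have hPair : Pair N B C := (Finset.mem_filter.1 hBC).2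
  have hmin' : ∀ B' C' : V → Finset V, Pair N B' C' → FF N w w B C ≤ FF N w w B' C' :=
    fun B' C' h => hmin (B', C') (Finset.mem_filter.2 ⟨Finset.mem_univ _, h⟩)
  have h1 : H1 N w B C := min_H1 hw hPair hmin'
  have h2 : H1 N w C B := min_H1 hw hPair.swap (fun B' C' h => by
    rw [FF_swap N w w C B, FF_swap N w w B' C']
    exact hmin' C' B' h.swap)
  have hLK := LK hN hw0 _ B C rfl hPair h2 w hw0 h1
  -- the new pair
  have hPair' : Pair N (fun a => cl N (LI N B a)) (fun a => cl N (LI N C a)) := by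
    refine ⟨?_, ?_, ?_⟩
    · intro a
      have h3 : a ∈ LI N B a := mem_LI.2 (fun s hs => hPair.hB s hs)
      intro x hx
      exact mem_cl.2 ⟨a, h3, hx⟩
    · intro a
      have h3 : a ∈ LI N C a := mem_LI.2 (fun s hs => hPair.hC s hs)
      intro x hx
      exact mem_cl.2 ⟨a, h3, hx⟩
    · intro a b hb ha
      obtain ⟨u, hu, hbu⟩ := mem_cl.1 hb
      obtain ⟨v, hv, hav⟩ := mem_cl.1 ha
      rw [mem_LI] at hu hv
      have h7 : v = u := hPair.hO v u (hu v hav) (hv u hbu)
      subst h7
      have h8 : a = v := hPair.hO a v (hu a (hN a)) (hPair.hC v hav)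
      subst h8
      exact hPair.hO a b (hPair.hB a hbu) (hv b (hN b))
  have hle := hmin' _ _ hPair'
  have hcc : ∀ X, cc N w (cl N X) ≤ cc N w X := by
    intro X
    by_cases hX : cl N X = X
    · rw [hX]
    · have h3 := hG X hX
      rw [wt_sdiff (sub_cl hN _), wt_sdiff (sub_cl hN _)] at h3
      unfold cc
      linarith
  have hcc' : ∀ X, cl N X ≠ X → cc N w (cl N X) < cc N w X := by
    intro X hX
    have h3 := hG X hX
    rw [wt_sdiff (sub_cl hN _), wt_sdiff (sub_cl hN _)] at h3
    unfold cc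
    linarith
  have hex : ∃ a, cl N (LI N B a) ≠ LI N B a := by
    by_contra hall
    push Not at hall
    obtain ⟨S, hS, hSmin⟩ := Finset.exists_min_image
      (univ.filter (fun S : Finset V => S.Nonempty ∧ cl N S ⊆ S)) Finset.card
      ⟨univ, Finset.mem_filter.2 ⟨Finset.mem_univ _, Finset.univ_nonempty,
        Finset.subset_univ _⟩⟩
    obtain ⟨_, ⟨a, ha⟩, hScl⟩ := Finset.mem_filter.1 hS
    have hkey : ∀ c ∈ S, S ⊆ B c := by
      intro c hc
      have hcLI : c ∈ LI N B c := mem_LI.2 (fun s hs => hPair.hB s hs)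
      have h3 : (LI N B c ∩ S) ∈
          univ.filter (fun S : Finset V => S.Nonempty ∧ cl N S ⊆ S) := by
        refine Finset.mem_filter.2 ⟨Finset.mem_univ _, ⟨c, Finset.mem_inter.2 ⟨hcLI, hc⟩⟩, ?_⟩
        intro x hx
        rw [Finset.mem_inter]
        refine ⟨?_, hScl (cl_mono Finset.inter_subset_right hx)⟩
        rw [← hall c]
        exact cl_mono Finset.inter_subset_left hx
      have h4 := hSmin _ h3
      have h5 : LI N B c ∩ S = S := Finset.eq_of_subset_of_card_le Finset.inter_subset_right h4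
      intro x hx
      rw [← h5, Finset.mem_inter] at hx
      exact mem_LI.1 hx.1 c (hN c)
    obtain ⟨b, hb, hba⟩ := hsink a
    have hbS : b ∈ S := hScl (mem_cl.2 ⟨a, ha, hb⟩)
    exact hba (hPair.hO b a (hkey b hbS ha) (hPair.hC a hb))
  obtain ⟨a0, ha0⟩ := hex
  have hlt : FF N w w (fun a => cl N (LI N B a)) (fun a => cl N (LI N C a)) <
      FF N w w (LI N B) (LI N C) := by
    unfold FF
    apply add_lt_add_of_lt_of_le
    · apply Finset.sum_lt_sum
      · intro a _
        exact mul_le_mul_of_nonneg_left (hcc _) (hw0 a)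
      · exact ⟨a0, Finset.mem_univ _, mul_lt_mul_of_pos_left (hcc' _ ha0) (hw a0)⟩
    · apply Finset.sum_le_sum
      intro a _
      exact mul_le_mul_of_nonneg_left (hcc _) (hw0 a)
  linarith

end Vale.Agent.P038.H542
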